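import Mathlib

/-!
P022: residually dihedral representations (words of the statement). `ℚ̄` is Mathlib's algebraic
closure of `ℚ`, `E` a finite extension of `ℚ₂`.
-/

open Matrix

noncomputable section

namespace Vale.Agent.P022.St

/-- the restriction of `ρ` to the group of `ℚ(ζ₈)` (the `g` fixing all 8-th roots of unity) is
absolutely irreducible: it has no stable line over the algebraic closure of `k` -/
def IrrCyc {k : Type} [Field k]
    (ρ : (AlgebraicClosure ℚ ≃ₐ[ℚ] AlgebraicClosure ℚ) →* GL (Fin 2) k) : Prop :=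
  ∀ w : Fin 2 → AlgebraicClosure k, w ≠ 0 →
    ∃ g : AlgebraicClosure ℚ ≃ₐ[ℚ] AlgebraicClosure ℚ,
      (∀ ζ : AlgebraicClosure ℚ, ζ ^ 8 = 1 → g ζ = ζ) ∧ ∀ a : AlgebraicClosure k,
        ((ρ g : Matrix (Fin 2) (Fin 2) k).map (algebraMap k (AlgebraicClosure k))) *ᵥ w ≠ a • w

/-- `ρ` is a residual representation of `r`: the traces and determinants of `r` are in the ring
`O` of integers of `E` and modulo the maximal ideal they are those of `ρ`, a representation over
an extension `k` of the residue field -/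
def IsRes {E : Type} [NontriviallyNormedField E]
    (r : (AlgebraicClosure ℚ ≃ₐ[ℚ] AlgebraicClosure ℚ) →* GL (Fin 2) E)
    {k : Type} [Field k]
    (ρ : (AlgebraicClosure ℚ ≃ₐ[ℚ] AlgebraicClosure ℚ) →* GL (Fin 2) k) : Prop :=
  ∃ (O : Subring E) (π : O →+* k), (∀ x : E, x ∈ O ↔ ‖x‖ ≤ 1) ∧
    ∀ g, ∃ t d : O, (t : E) = (r g : Matrix (Fin 2) (Fin 2) E).trace ∧
      (d : E) = (r g : Matrix (Fin 2) (Fin 2) E).det ∧
      π t = (ρ g : Matrix (Fin 2) (Fin 2) k).trace ∧ π d = (ρ g : Matrix (Fin 2) (Fin 2) k).det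

end Vale.Agent.P022.St
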